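import Vale.Agent.P141.H186.PartS

/-!
# P141, line A: statements about one slot from theorems at one slot

`PartS.of_slot` : `PartS D Φ` from a theorem at one slot with an explicit constant (a function of
the numbers without `t`); `ImpS.both`, `PartS.imp`, `PartS.and'` : conjunctions.
-/

namespace Vale.Agent.P141.H675.PX

open Finset Matrix
open Vale.Agent.P141.PL (Pt iv hs ix mem_iv ix_ix cb mem_cb cx card_iv)
open Vale.Agent.P141.PL.H315 (Tri)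
open Vale.Agent.P141.H48 (US ES)
open Vale.Agent.P141.H795 (E8)
open Vale.Agent.P141.H401 (Bun)
open Vale.Agent.P141.H305 (ClsM kapM)
open Vale.Agent.P141.H677 Vale.Agent.P141.H677.Sk
open Vale.Agent.P141.H186.PS

noncomputable section

open scoped Classical

/-- the numbers without `t` -/
def wot (q : H401.Num) : H401.Num := { q with t := 1 }

/-- **From one slot to `PartS`.** -/
theorem PartS.of_slot {D : Bun} {Φ : SlotSt} (Cf : H401.Num → ℝ)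
    (H : ∀ (ι : Type) [Fintype ι] [DecidableEq ι] (q : H401.Num) (n : ℕ) (ez : ℝ)
      (F1 F2 F3 : ℕ → Pt → ℝ) (o : ℤ) (K : ℕ) (x : Pt) (s r : ℝ) (U : Tri) (g : ℤ → ℤ → ℝ)
      (u v : ℤ → ℤ → ι → ℝ) (A : FamA) (b C : FamV ι) (R : Slt ι) (κ E : ℝ) (h : Pt) (j : ℤ)
      (e : Pt), 0 < q.a → q.a ≤ 1 → 0 < q.e0 → q.e0 ≤ 1 → 0 < q.k8 → q.k8 ≤ 1 → 0 < q.k3 →
      q.k3 ≤ 1 → 0 ≤ q.c → q.c ≤ 1 → 0 < q.d → q.d ≤ 1 → 0 < q.Kt → 1 ≤ q.e → 0 ≤ q.cP →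
      1 ≤ q.L → 1 ≤ q.CD → 0 < q.t → q.t ≤ 1 →
      US n (q.Kt * q.t ^ (1 - q.c)) q.e q.cP F1 → US n (q.Kt * q.t ^ (1 - q.c)) q.e q.cP F3 →
      ES n ez q.cP F2 → (o = 1 ∨ o = -1) → K ≤ n → 0 < s → 1 ≤ r →
      ClsM K x s r (q.L * q.t ^ (2 - q.c) * √s) (kapM q.L q.t q.a s r) U g u v →
      D ι q n ez F1 F2 F3 o K x s r U g u v A b C → 1 ≤ κ → 0 < E → E ≤ q.L + 3780000 →
      SlotN (q.al U K) o K (cx K x) (q.lam s r) u R κ E →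
      h ∈ cb K 0 → j ∈ Icc (0 : ℤ) 2 → e ∈ E8 →
      Φ ι q n ez F1 F2 F3 o K x s r U g u v A b C R κ E h j e (max 1 (Cf (wot q)))) :
    PartS D Φ := by
  intro a ha ha1
  refine ⟨1, one_pos, le_rfl, fun e0 he0 he0' => ⟨1, one_pos, fun k8 hk8 hk8' =>
    ⟨1, one_pos, fun k3 hk3 hk3' => ⟨1, 1, one_pos, one_pos,
      fun c hc hcc d hd hdd Kt e cP L hK he hcP hL CD hCD =>
        ⟨max 1 (Cf ⟨a, e0, k8, k3, c, d, Kt, e, cP, L, CD, 1⟩), le_max_left _ _, ?_⟩⟩⟩⟩⟩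
  intro t ht ht1 n ez F1 F2 F3 h1 h3 h2 o ho K hKn x ι _ _ s r U g u v hs hr hcls A b' C' hD
    R κ E hκ hE hEL hsl h hh j hj q hq
  exact H ι ⟨a, e0, k8, k3, c, d, Kt, e, cP, L, CD, t⟩ n ez F1 F2 F3 o K x s r U g u v A b' C' R κ
    E h j q ha ha1 he0 he0' hk8 hk8' hk3 hk3' hc hcc hd hdd hK he hcP hL hCD ht ht1 h1 h3 h2 ho hKn
    hs hr hcls hD hκ hE hEL hsl hh hj hq

theorem ImpS.both {Φ Ψ : SlotSt} (m1 : ImpS Φ Φ) (m2 : ImpS Ψ Ψ) :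
    ImpS (fun ι _ _ p n ez F1 F2 F3 o K x s r U g u v A b C R κ E h j q X =>
      Φ ι p n ez F1 F2 F3 o K x s r U g u v A b C R κ E h j q X ∧
      Ψ ι p n ez F1 F2 F3 o K x s r U g u v A b C R κ E h j q X)
      (fun ι _ _ p n ez F1 F2 F3 o K x s r U g u v A b C R κ E h j q X =>
      Φ ι p n ez F1 F2 F3 o K x s r U g u v A b C R κ E h j q X ∧
      Ψ ι p n ez F1 F2 F3 o K x s r U g u v A b C R κ E h j q X) := by
  intro ι _ _ p n ez F1 F2 F3 o K x s r U g u v A b C R κ E h j q X X' a1 a2 a3 a4 a5 a6 a7 a8 H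
  exact ⟨m1 ι p n ez F1 F2 F3 o K x s r U g u v A b C R κ E h j q X X' a1 a2 a3 a4 a5 a6 a7 a8 H.1,
    m2 ι p n ez F1 F2 F3 o K x s r U g u v A b C R κ E h j q X X' a1 a2 a3 a4 a5 a6 a7 a8 H.2⟩

/-- **A consequence at one slot**, the constant may be enlarged. -/
theorem PartS.imp {D : Bun} {Φ Ψ : SlotSt} (C0 : ℝ) (mono : ImpS Φ Φ) (H0 : PartS D Φ)
    (H : ∀ (ι : Type) [Fintype ι] [DecidableEq ι] (q : H401.Num) (n : ℕ) (ez : ℝ)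
      (F1 F2 F3 : ℕ → Pt → ℝ) (o : ℤ) (K : ℕ) (x : Pt) (s r : ℝ) (U : Tri) (g : ℤ → ℤ → ℝ)
      (u v : ℤ → ℤ → ι → ℝ) (A : FamA) (b C : FamV ι) (R : Slt ι) (κ E : ℝ) (h : Pt) (j : ℤ)
      (e : Pt) (X : ℝ), 0 < q.a → q.a ≤ 1 → 0 < q.e0 → q.e0 ≤ 1 → 0 < q.k8 → q.k8 ≤ 1 →
      0 < q.k3 → q.k3 ≤ 1 → 0 ≤ q.c → q.c ≤ 1 → 0 < q.d → q.d ≤ 1 → 0 < q.Kt → 1 ≤ q.e →
      0 ≤ q.cP → 1 ≤ q.L → 1 ≤ q.CD → 0 < q.t → q.t ≤ 1 →
      US n (q.Kt * q.t ^ (1 - q.c)) q.e q.cP F1 → US n (q.Kt * q.t ^ (1 - q.c)) q.e q.cP F3 →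
      ES n ez q.cP F2 → (o = 1 ∨ o = -1) → K ≤ n → 0 < s → 1 ≤ r →
      ClsM K x s r (q.L * q.t ^ (2 - q.c) * √s) (kapM q.L q.t q.a s r) U g u v →
      D ι q n ez F1 F2 F3 o K x s r U g u v A b C → 1 ≤ κ → 0 < E → E ≤ q.L + 3780000 →
      SlotN (q.al U K) o K (cx K x) (q.lam s r) u R κ E →
      h ∈ cb K 0 → j ∈ Icc (0 : ℤ) 2 → e ∈ E8 → 1 ≤ X → C0 ≤ X →
      Φ ι q n ez F1 F2 F3 o K x s r U g u v A b C R κ E h j e X →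
      Ψ ι q n ez F1 F2 F3 o K x s r U g u v A b C R κ E h j e X) :
    PartS D Ψ := by
  intro a ha ha1
  obtain ⟨es, hes, hes1, H0⟩ := H0 a ha ha1
  refine ⟨es, hes, hes1, fun e0 he0 he0' => ?_⟩
  obtain ⟨k8s, hk8s, H0⟩ := H0 e0 he0 he0'
  refine ⟨min k8s 1, lt_min hk8s one_pos, fun k8 hk8 hk8' => ?_⟩
  obtain ⟨k3s, hk3s, H0⟩ := H0 k8 hk8 (hk8'.trans (min_le_left _ _))
  refine ⟨min k3s 1, lt_min hk3s one_pos, fun k3 hk3 hk3' => ?_⟩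
  obtain ⟨c1, d1, hc1, hd1, H0⟩ := H0 k3 hk3 (hk3'.trans (min_le_left _ _))
  refine ⟨min c1 1, min d1 1, lt_min hc1 one_pos, lt_min hd1 one_pos,
    fun c hc hcc d hd hdd Kt e cP L hK he hcP hL CD hCD => ?_⟩
  obtain ⟨C, hC, H0⟩ := H0 c hc (hcc.trans (min_le_left _ _)) d hd (hdd.trans (min_le_left _ _))
    Kt e cP L hK he hcP hL CD hCD
  refine ⟨max C C0, le_max_of_le_left hC, ?_⟩
  intro t ht ht1 n ez F1 F2 F3 h1 h3 h2 o ho K hKn x ι _ _ s r U g u v hs hr hcls A b' C' hD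
    R κ E hκ hE hEL hsl h hh j hj q hq
  have h0 := H0 t ht ht1 n ez F1 F2 F3 h1 h3 h2 o ho K hKn x ι s r U g u v hs hr hcls A b' C' hD
    R κ E hκ hE hEL hsl h hh j hj q hq
  exact H ι ⟨a, e0, k8, k3, c, d, Kt, e, cP, L, CD, t⟩ n ez F1 F2 F3 o K x s r U g u v A b' C' R κ
    E h j q (max C C0) ha ha1 he0 (he0'.trans hes1) hk8 (hk8'.trans (min_le_right _ _)) hk3
    (hk3'.trans (min_le_right _ _)) hc (hcc.trans (min_le_right _ _)) hd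
    (hdd.trans (min_le_right _ _)) hK he hcP hL hCD ht ht1 h1 h3 h2 ho hKn
    hs hr hcls hD hκ hE hEL hsl hh hj hq (le_max_of_le_left hC) (le_max_right _ _)
    (mono ι ⟨a, e0, k8, k3, c, d, Kt, e, cP, L, CD, t⟩ n ez F1 F2 F3 o K x s r U g u v A b' C' R κ
      E h j q C (max C C0) ht ht1 hs hr hκ hE hC (le_max_left _ _) h0)

end

end Vale.Agent.P141.H675.PX
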