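import Vale.Agent.P141.H277.PhiS
import Vale.Agent.P141.H585.PairRXS
import Vale.Agent.P141.H377.CapP2
import Vale.Agent.P141.H636.FibF
import Vale.Agent.P141.H675.OfSlot

/-!
# P141, line A, flow part, hub `x1`: the statement `PhiX` from the summed numbers

Over `H585.PairRX.RX_BC`.

* `PhA` : energies, moves, affected rows at every lag; `PhBo` : births of `b`;
* `PhCap` : the caps of `b` on the grid; `PhV1` : masses of `b`; `PhV2` : the own error of `b`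
  against the moves of the slot;
* `level`, `all_levels`, `cap_num` : numbers;
* **`phiX_of`** : `PhiX` from the five statements.
-/

namespace Vale.Agent.P141.H675.PX

open Finset Matrix
open Vale.Agent.P075 (Ix val)
open Vale.Agent.P141.PL (Pt iv hs ix mem_iv ix_ix cb mem_cb cx card_iv)
open Vale.Agent.P141.PL.H315 (Tri)
open Vale.Agent.P141.H48 (US ES)
open Vale.Agent.P141.H795 (E8 ys)
open Vale.Agent.P141.H401 (Bun)
open Vale.Agent.P141.H305 (ClsM kapM)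
open Vale.Agent.P141.H958 (lbs)
open Vale.Agent.P141.H581 (RX)
open Vale.Agent.P141.H747 (sL sG MA MB MC MSb RgS shC)
open Vale.Agent.P141.H677 Vale.Agent.P141.H677.Sk
open Vale.Agent.P141.H186.PS
open Vale.Agent.P141.H277.Phi
open Vale.Agent.P141.H585.PairRX
open Vale.Agent.P141.H297.Ch (XH)
open Vale.Agent.P141.H585.PairR (PB)
open Vale.Agent.P141.H38.Q (bP AfC)
open Vale.Agent.P141.H377.P1 (cC1 capC_P1 cC1_nonneg)

noncomputable section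

open scoped Classical

set_option linter.unusedVariables false
set_option linter.unusedSectionVars false

/-! ### Numbers -/

/-- one number of levels -/
theorem level {cC T m H : ℝ} (hT : 0 < T) (hm : 0 < m) (hm1 : m ≤ 1) (hH : 1 ≤ H)
    (hc : cC ≤ H * T) :
    ∃ J : ℕ, cC ≤ 4 ^ J * (√m * T) ∧ ((J : ℝ) + 1) ^ 3 ≤ 8 * (1 + Real.log (H / m)) ^ 3 := by
  set Y : ℝ := H / m with hY
  have hY1 : 1 ≤ Y := by
    rw [hY, le_div_iff₀ hm]
    linarith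
  have hY0 : 0 < Y := by linarith
  have l4 : 1 ≤ Real.log 4 := by
    rw [Real.le_log_iff_exp_le (by norm_num)]
    linarith [Real.exp_one_lt_d9]
  have hl : 0 ≤ Real.log Y := Real.log_nonneg hY1
  refine ⟨⌈Real.log Y / Real.log 4⌉₊, ?_, ?_⟩
  · set J := ⌈Real.log Y / Real.log 4⌉₊ with hJ
    have h1 : Real.log Y / Real.log 4 ≤ J := Nat.le_ceil _
    rw [div_le_iff₀ (by linarith)] at h1
    have h2 : Y ≤ 4 ^ J := by
      rw [← Real.log_le_log_iff hY0 (by positivity), Real.log_pow]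
      exact h1
    have h3 : m ≤ √m := by
      have h4 : √m ≤ 1 := Real.sqrt_le_one.2 hm1
      have h5 := Real.mul_self_sqrt hm.le
      nlinarith [Real.sqrt_nonneg m]
    have h6 : H = Y * m := by
      rw [hY]
      field_simp
    calc cC ≤ H * T := hc
      _ = Y * (m * T) := by rw [h6]; ring
      _ ≤ 4 ^ J * (√m * T) := by gcongr
  · have h1 : (⌈Real.log Y / Real.log 4⌉₊ : ℝ) < Real.log Y / Real.log 4 + 1 :=
      Nat.ceil_lt_add_one (by positivity)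
    have h2 : Real.log Y / Real.log 4 ≤ Real.log Y := div_le_self hl l4
    have h3 : (⌈Real.log Y / Real.log 4⌉₊ : ℝ) + 1 ≤ 2 * (1 + Real.log Y) := by linarith
    calc ((⌈Real.log Y / Real.log 4⌉₊ : ℝ) + 1) ^ 3 ≤ (2 * (1 + Real.log Y)) ^ 3 := by gcongr
      _ = _ := by ring

/-- **All levels**: from the bound with `J` levels at every `y` to one bound. -/
theorem all_levels {F : ℝ → ℝ} {P C0 E V τ cC m H : ℝ} (hτ : 0 < τ) (hm : 0 < m) (hm1 : m ≤ 1)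
    (hH : 1 ≤ H) (hc : cC ≤ H * τ ^ 2) (hP : 0 ≤ P) (hC0 : 0 ≤ C0) (hE : 0 ≤ E)
    (hF : ∀ y : ℝ, 0 < y → ∀ J : ℕ, cC ≤ 4 ^ J * y ^ 2 →
      F y ≤ P * (C0 * ((J : ℝ) + 1) ^ 3 * (√(y ^ 2 * E * (τ ^ 2 * V)) + τ ^ 2 * E))) :
    ∀ y : ℝ, m ^ (1 / 4 : ℝ) * τ ≤ y →
      F y ≤ P * (8 * C0 * (1 + Real.log (H / m)) ^ 3 *
        (√(y ^ 2 * E * (τ ^ 2 * V)) + τ ^ 2 * E)) := by
  obtain ⟨J, h1, h2⟩ := level (by positivity : 0 < τ ^ 2) hm hm1 hH hc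
  intro y hy
  have hm4 : 0 < m ^ (1 / 4 : ℝ) := Real.rpow_pos_of_pos hm _
  have hy0 : 0 < y := lt_of_lt_of_le (by positivity) hy
  have h3 : √m * τ ^ 2 ≤ y ^ 2 := by
    have e1 : (m ^ (1 / 4 : ℝ) * τ) ^ 2 = √m * τ ^ 2 := by
      rw [mul_pow, ← Real.rpow_natCast (m ^ (1 / 4 : ℝ)), ← Real.rpow_mul hm.le,
        Real.sqrt_eq_rpow]
      norm_num
    rw [← e1]
    exact pow_le_pow_left₀ (by positivity) hy 2
  have h4 : cC ≤ 4 ^ J * y ^ 2 := h1.trans (mul_le_mul_of_nonneg_left h3 (by positivity))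
  refine (hF y hy0 J h4).trans ?_
  have h5 : 0 ≤ √(y ^ 2 * E * (τ ^ 2 * V)) + τ ^ 2 * E := by positivity
  have h6 : C0 * ((J : ℝ) + 1) ^ 3 ≤ 8 * C0 * (1 + Real.log (H / m)) ^ 3 := by nlinarith
  gcongr

/-- the cap number -/
theorem cap_num {q : H401.Num} {s r κ ε X : ℝ} (ht : 0 < q.t) (ht1 : q.t ≤ 1) (hs : 0 < s)
    (hr : 1 ≤ r) (hκ : 1 ≤ κ) (hε0 : 0 ≤ ε) (hε1 : ε ≤ 1) (hX : 3 ≤ X) (hk3 : 0 ≤ q.k3)
    (hd2 : q.d ≤ 2) :
    (ε ^ 2 + κ ^ 2) * (16 * √(q.Lm * s)) ≤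
      (X * κ * (r / q.t)) ^ (⌈X⌉₊) * (4 * q.th s r ^ 2) := by
  have hr0 : 0 < r := by linarith
  have hρ : 1 ≤ r / q.t := by
    rw [le_div_iff₀ ht]
    linarith
  have hs2 : 0 ≤ √s := Real.sqrt_nonneg s
  have h1 : √(q.Lm * s) ≤ (1 / q.t) * √s := by
    have e1 : q.Lm ≤ (1 / q.t) ^ 2 := by
      unfold H401.Num.Lm
      have e2 : (1 / q.t) ^ 2 = q.t ^ (-2 : ℝ) := by
        rw [Real.rpow_neg ht.le, one_div, inv_pow]
        norm_num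
      rw [e2]
      exact Real.rpow_le_rpow_of_exponent_ge ht ht1 (by linarith)
    calc √(q.Lm * s) ≤ √((1 / q.t) ^ 2 * s) := Real.sqrt_le_sqrt (by gcongr)
      _ = (1 / q.t) * √s := by
        rw [Real.sqrt_mul (by positivity), Real.sqrt_sq (by positivity)]
  have h2 : q.t ^ 2 * √s ≤ q.th s r ^ 2 := by
    rw [H401.Num.th_sq ht hs hr]
    have e1 : q.t ^ 2 ≤ q.t ^ (2 - 2 * q.k3) := by
      have e2 : q.t ^ 2 = q.t ^ (2 : ℝ) := by norm_num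
      rw [e2]
      exact Real.rpow_le_rpow_of_exponent_ge ht ht1 (by linarith)
    have e3 : 1 ≤ r ^ (2 * q.k3) := Real.one_le_rpow hr (by linarith)
    calc q.t ^ 2 * √s = q.t ^ 2 * √s * 1 := by ring
      _ ≤ q.t ^ (2 - 2 * q.k3) * √s * r ^ (2 * q.k3) := by gcongr
  have h3 : ε ^ 2 + κ ^ 2 ≤ 2 * κ ^ 2 := by nlinarith
  have hX3 : 3 ≤ ⌈X⌉₊ := by
    have : (3 : ℝ) ≤ (⌈X⌉₊ : ℝ) := hX.trans (Nat.le_ceil X)
    exact_mod_cast this
  have hXκ : 1 ≤ X * κ := by nlinarith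
  have h4 : 27 * κ ^ 2 * (1 / q.t) ^ 3 ≤ (X * κ * (r / q.t)) ^ (⌈X⌉₊) := by
    have e1 : 1 ≤ X * κ * (r / q.t) := by nlinarith
    have e2 : (X * κ * (r / q.t)) ^ 3 ≤ (X * κ * (r / q.t)) ^ (⌈X⌉₊) := pow_le_pow_right₀ e1 hX3
    have e3 : 1 / q.t ≤ r / q.t := by gcongr
    have e4 : 3 * κ * (1 / q.t) ≤ X * κ * (r / q.t) := by gcongr
    have e5 : (3 * κ * (1 / q.t)) ^ 3 ≤ (X * κ * (r / q.t)) ^ 3 :=
      pow_le_pow_left₀ (by positivity) e4 3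
    refine le_trans ?_ (e5.trans e2)
    have e6 : κ ^ 2 ≤ κ ^ 3 := pow_le_pow_right₀ hκ (by norm_num)
    have e7 : (3 * κ * (1 / q.t)) ^ 3 = 27 * κ ^ 3 * (1 / q.t) ^ 3 := by ring
    rw [e7]
    gcongr
  calc (ε ^ 2 + κ ^ 2) * (16 * √(q.Lm * s)) ≤ (2 * κ ^ 2) * (16 * ((1 / q.t) * √s)) := by gcongr
    _ = 32 * κ ^ 2 * (1 / q.t) * √s := by ring
    _ ≤ 108 * κ ^ 2 * (1 / q.t) * √s := by gcongr; norm_num
    _ = (27 * κ ^ 2 * (1 / q.t) ^ 3) * (4 * (q.t ^ 2 * √s)) := by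
      field_simp
      ring
    _ ≤ (X * κ * (r / q.t)) ^ (⌈X⌉₊) * (4 * q.th s r ^ 2) := by gcongr

/-! ### The five statements -/

/-- energies, moves and affected rows of the stack, every lag, `ε = m ^ (1 / 4)` -/
def PhA : SlotSt := fun ι _ _ q _n ez _F1 _F2 _F3 _o K x s r _U _g _u _v A b' C' R κ _E h j e X =>
  0 < ez → ∀ m N0 : ℝ, 0 < m → m ≤ 1 → 0 ≤ N0 → NumX K (cx K x) R C' h (N0 * (ez * m)) →
  ∀ t' ∈ rt (cx K x), ∀ l, l ≤ K →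
    (∑ x0 ∈ iv K t', H0 0 K ((cx K x).1 - e.1) ((cx K x).2.2 - e.2.2) (m ^ (1 / 4 : ℝ))
      (RR R h x0) (cR K (cx K x) (Cz ez C') h x0) l ≤ X * (N0 + MM q s r κ K) * √m) ∧
    (∑ x0 ∈ iv K t', Q0 0 K ((cx K x).1 - e.1) ((cx K x).2.2 - e.2.2) (m ^ (1 / 4 : ℝ))
      (RR R h x0) (DR R h x0) (cR K (cx K x) (Cz ez C') h x0) l ≤
      X * (N0 + MM q s r κ K) * √m) ∧
    (∑ x0 ∈ iv K t', M0 0 K ((cx K x).1 - e.1) ((cx K x).2.2 - e.2.2) (m ^ (1 / 4 : ℝ))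
      (RR R h x0) (cR K (cx K x) (Cz ez C') h x0) l ≤ X * (N0 + MM q s r κ K) * √m)

/-- births of `b`: any predicate which contains the changed rows -/
def PhBo : SlotSt := fun ι _ _ q _n ez _F1 _F2 _F3 _o K x s r _U _g _u _v A b' C' R κ _E h j e X =>
  0 < ez → ∀ m N0 : ℝ, 0 < m → m ≤ 1 → 0 ≤ N0 → NumX K (cx K x) R C' h (N0 * (ez * m)) →
  ∀ t' ∈ rt (cx K x), ∃ Bo : ℤ → ℕ → ℤ → ℤ → Prop,
    (∀ x0 ∈ iv K t', ∀ k < K, ∀ x1 x2,
      AfC k (MSb K (cx K x) b' h x0 k) (MSb K (cx K x) b' h x0 (k + 1)) (ix k x1) x2 →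
      Bo x0 k (ix (k + 1) x2) (ix k x1)) ∧
    ∑ x0 ∈ iv K t', EX 0 K ((cx K x).1 - e.1) ((cx K x).2.2 - e.2.2)
      (fun k => ix k (ys (-x0) h) - j) (Bo x0) (m ^ (1 / 4 : ℝ)) (RR R h x0)
      (cR K (cx K x) (Cz ez C') h x0) ≤ X * (N0 + MM q s r κ K) * √m

/-- caps of `b` on the grid -/
def PhCap : SlotSt := fun ι _ _ q _n _ez _F1 _F2 _F3 _o K x s r _U _g _u _v A b' C' R κ _E h j e _X =>
  ∀ x0 : ℤ, ∀ k, k ≤ K → ∀ n m,
    (tS q s r ^ 2 • (1 : Matrix (Ix k × (ι ⊕ ι)) (Ix k × (ι ⊕ ι)) ℝ)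
      - PB (MSb K (cx K x) b' h x0) k k n m).PosSemidef

/-- masses of `b` on the changed rows -/
def PhV1 : SlotSt := fun ι _ _ q _n _ez _F1 _F2 _F3 _o K x s r _U _g _u _v A b' C' R κ _E h j e X =>
  ∀ t' ∈ rt (cx K x), ∑ x0 ∈ iv K t', MV 0 K ((cx K x).2.1 - e.2.1) ((cx K x).1 - e.1)
    (MSb K (cx K x) b' h x0) ≤ X * MM q s r κ K

/-- `b` against the moves of the slot -/
def PhV2 : SlotSt := fun ι _ _ q _n _ez _F1 _F2 _F3 _o K x s r _U _g _u _v A b' C' R κ _E h j e X =>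
  ∀ t' ∈ rt (cx K x), ∑ x0 ∈ iv K t', ZV 0 K ((cx K x).2.1 - e.2.1) ((cx K x).1 - e.1)
    (fun k => ix k (ys (-x0) h) - j) (DR R h x0) (MSb K (cx K x) b' h x0) ≤ X * MM q s r κ K

theorem PhA_imp : ImpS PhA PhA := by
  intro ι _ _ q n ez F1 F2 F3 o K x s r U g u v A b' C' R κ E h j e X X' ht ht1 hs hr hκ _ hX hXX H
  intro hez m N0 hm hm1 hN0 hnum t' ht' l hl
  have hM := MM_nonneg (K := K) ht ht1 hs hr hκ
  have h0 : X * (N0 + MM q s r κ K) * √m ≤ X' * (N0 + MM q s r κ K) * √m := by gcongr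
  obtain ⟨h1, h2, h3⟩ := H hez m N0 hm hm1 hN0 hnum t' ht' l hl
  exact ⟨h1.trans h0, h2.trans h0, h3.trans h0⟩

theorem PhBo_imp : ImpS PhBo PhBo := by
  intro ι _ _ q n ez F1 F2 F3 o K x s r U g u v A b' C' R κ E h j e X X' ht ht1 hs hr hκ _ hX hXX H
  intro hez m N0 hm hm1 hN0 hnum t' ht'
  have hM := MM_nonneg (K := K) ht ht1 hs hr hκ
  have h0 : X * (N0 + MM q s r κ K) * √m ≤ X' * (N0 + MM q s r κ K) * √m := by gcongr
  obtain ⟨Bo, h1, h2⟩ := H hez m N0 hm hm1 hN0 hnum t' ht'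
  exact ⟨Bo, h1, h2.trans h0⟩

theorem PhCap_imp : ImpS PhCap PhCap := by
  intro ι _ _ q n ez F1 F2 F3 o K x s r U g u v A b' C' R κ E h j e X X' ht ht1 hs hr hκ _ hX hXX H
  exact H

theorem PhV1_imp : ImpS PhV1 PhV1 := by
  intro ι _ _ q n ez F1 F2 F3 o K x s r U g u v A b' C' R κ E h j e X X' ht ht1 hs hr hκ _ hX hXX H
  intro t' ht'
  have hM := MM_nonneg (K := K) ht ht1 hs hr hκ
  exact (H t' ht').trans (mul_le_mul_of_nonneg_right hXX hM)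

theorem PhV2_imp : ImpS PhV2 PhV2 := by
  intro ι _ _ q n ez F1 F2 F3 o K x s r U g u v A b' C' R κ E h j e X X' ht ht1 hs hr hκ _ hX hXX H
  intro t' ht'
  have hM := MM_nonneg (K := K) ht ht1 hs hr hκ
  exact (H t' ht').trans (mul_le_mul_of_nonneg_right hXX hM)

/-- **`PhiX` from the five statements.** -/
theorem phiX_of (HA : PartS H636.FDU PhA) (HB : PartS H636.FDU PhBo) (HC : PartS H636.FDU PhCap)
    (H1 : PartS H636.FDU PhV1) (H2 : PartS H636.FDU PhV2) : PartS H636.FDU PhiX := by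
  have G1 := PartS.and PhA_imp PhBo_imp HA HB
  have G2 := PartS.and PhV1_imp PhV2_imp H1 H2
  have G3 := PartS.and (ImpS.both PhA_imp PhBo_imp) (ImpS.both PhV1_imp PhV2_imp) G1 G2
  have G4 := PartS.and (ImpS.both (ImpS.both PhA_imp PhBo_imp) (ImpS.both PhV1_imp PhV2_imp))
    PhCap_imp G3 HC
  refine PartS.imp (8 * 10 ^ 6) (ImpS.both (ImpS.both (ImpS.both PhA_imp PhBo_imp)
    (ImpS.both PhV1_imp PhV2_imp)) PhCap_imp) G4 ?_
  intro ι _ _ q n ez F1 F2 F3 o K x s r U g u v A b' C' R κ E h j e X _ _ _ _ _ _ hk3 _ hc _ hd hd1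
    _ _ _ _ _ ht ht1 _ _ _ _ hKn hs hr hcls hD hκ _ _ hS hh hj _ hX1 hX8 ⟨⟨⟨hA, hB⟩, h1, h2⟩, hcap⟩
  intro hez m N0 hm hm1 hN0 hnum t' ht' Lb eb he1 he2
  obtain ⟨_, _, Q1, Q2, Q3, v', hF⟩ := hD
  have hM := MM_nonneg (K := K) ht ht1 hs hr hκ
  have hsm : 0 < √m := Real.sqrt_pos.2 hm
  have hsm1 : √m ≤ 1 := Real.sqrt_le_one.2 hm1
  have hth := H401.Num.th_pos (p := q) ht hs hr
  have hτ : 0 < tS q s r := Real.sqrt_pos.2 (by positivity)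
  have hτ2 : tS q s r ^ 2 = 4 * q.th s r ^ 2 := Real.sq_sqrt (by positivity)
  have hm4 : 0 < m ^ (1 / 4 : ℝ) := Real.rpow_pos_of_pos hm _
  have hm41 : m ^ (1 / 4 : ℝ) ≤ 1 := Real.rpow_le_one hm.le hm1 (by norm_num)
  have hm42 : (m ^ (1 / 4 : ℝ)) ^ 2 = √m := by
    rw [← Real.rpow_natCast (m ^ (1 / 4 : ℝ)), ← Real.rpow_mul hm.le, Real.sqrt_eq_rpow]
    norm_num
  have hX0 : 0 ≤ X := by linarith
  obtain ⟨Bo, hBo, hE4⟩ := hB hez m N0 hm hm1 hN0 hnum t' ht'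
  have hE := hA hez m N0 hm hm1 hN0 hnum t' ht'
  have hV1 := h1 t' ht'
  have hV2 := h2 t' ht'
  set Es : ℝ := X * (N0 + MM q s r κ K) * √m with hEs
  set EV : ℝ := X * MM q s r κ K / √m with hEV
  have nE : 0 ≤ Es := by positivity
  have nV : 0 ≤ EV := by positivity
  have hL : 0 ≤ q.Lm := zero_le_one.trans (H401.Num.Lm_ge ht ht1 hd.le)
  have hH1 : 1 ≤ HH q r κ X := HH_one ht ht1 hr hκ hX1
  have hcC : cC1 q.Lm s (m ^ (1 / 4 : ℝ)) κ ≤ HH q r κ X * tS q s r ^ 2 := by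
    rw [hτ2]
    exact cap_num ht ht1 hs hr hκ hm4.le hm41 (by linarith) hk3.le (by linarith)
  refine ⟨Es, EV, nE, nV, le_rfl, ?_, ?_⟩
  · rw [hEV, div_mul_cancel₀ _ hsm.ne']
    exact mul_le_mul_of_nonneg_left (by linarith) hX0
  have key := all_levels (F := fun z => RX (iv K t') (K + Lb)
      (fun x0 => sL Lb (sG K (cx K x) (-x0) h j e)) (tS q s r) z (MB K (cx K x) b' Lb eb h)
      (MC K (cx K x) R (Cz ez C') Lb eb (m ^ (1 / 4 : ℝ)) h)) (P := 4 ^ Lb) (C0 := 10 ^ 6)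
      (E := Es) (V := EV) hτ hm hm1 hH1 hcC (by positivity) (by positivity) nE ?_
  · intro z hz
    refine (key z hz).trans ?_
    have l1 : 1 ≤ HH q r κ X / m := by
      rw [le_div_iff₀ hm]
      linarith
    have l2 := Real.log_nonneg l1
    have l3 : 0 ≤ √(z ^ 2 * Es * (tS q s r ^ 2 * EV)) + tS q s r ^ 2 * Es := by positivity
    have l4 : 8 * 10 ^ 6 * (1 + Real.log (HH q r κ X / m)) ^ 3 ≤
        X * (1 + Real.log (HH q r κ X / m)) ^ 3 := by gcongr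
    gcongr
  · intro y hy J hJ
    have hcC' : ∀ x0 ∈ iv K t', ∀ k a n m', k ≤ a → a < K →
        (cC1 q.Lm s (m ^ (1 / 4 : ℝ)) κ • (1 : Matrix (Ix k × (ι ⊕ ι)) (Ix k × (ι ⊕ ι)) ℝ)
          - XH (m ^ (1 / 4 : ℝ)) (RR R h x0) (cR K (cx K x) (Cz ez C') h x0 k) k a n
            m').PosSemidef := by
      intro x0 _ k a n' m' h1 h2
      exact capC_P1 hF hcls.toCls hL hs.le hez.le hKn hS (Ct := Cz ez C') (fun _ _ _ _ => rfl) x0 h
        (m ^ (1 / 4 : ℝ)) k a n' m' (Nat.zero_le k) h1 h2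
    exact RX_BC K (cx K x) R b' (Cz ez C') he1 he2 hm4.ne' h t' hj e hτ hy (sq_nonneg _)
      (fun x0 _ k hk n' m' => hcap x0 k hk n' m') hcC' hJ (Bo := Bo) hBo nE
      (fun l hl => (hE l hl).1) (fun l hl => (hE l hl).2.1) (fun l hl => (hE l hl).2.2) hE4
      (hV1.trans (by
        rw [hEV, le_div_iff₀ hsm]
        exact mul_le_of_le_one_right (by positivity) hsm1))
      (by
        rw [hm42, hEV, div_eq_inv_mul]
        exact mul_le_mul_of_nonneg_left hV2 (by positivity))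

end

end Vale.Agent.P141.H675.PX
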