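import Vale.Agent.P141.H108.PhA
import Vale.Agent.P141.H999.PhV1
import Vale.Agent.P141.H377.PhCap
import Vale.Agent.P141.H796.PhV2

/-!
# P141, line A, flow part, hub `x1`: `PhiX` from the births

`phiX_of_bo` : four of the five statements of `PhiX` are closed.
-/

namespace Vale.Agent.P141.H675.PX

open Vale.Agent.P141.H186.PS
open Vale.Agent.P141.H277.Phi

/-- **`PhiX` from the statement about births.** -/
theorem phiX_of_bo (HB : PartS H636.FDU PhBo) : PartS H636.FDU PhiX :=
  phiX_of H108.phA HB H377.phCap H999.phV1 H796.phV2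

end Vale.Agent.P141.H675.PX
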