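import Vale.Agent.P141.H222.NumOf
import Vale.Agent.P141.H736.FixBD
import Vale.Agent.P141.H74.CutBC
import Vale.Agent.P141.H652.NumR
import Vale.Agent.P141.H652.NumQ
import Vale.Agent.P141.H302.BornU
import Vale.Agent.P141.H329.WinS
import Vale.Agent.P141.H548.OwnE
import Vale.Agent.P141.H989.CrB3

/-!
# P141, line (A), increasing part: the numbers of the pair `(Bg, Cg)` at one point

`fE`, `fB` : the two numbers; `numBC : H886.NumBC K₀ c₁`; `lBCg`.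
-/

namespace Vale.Agent.P141.H675.PT

open Finset Matrix
open Vale.Agent.P075 (Ix)
open Vale.Agent.P141.PL (Pt iv ix cx mem_iv)
open Vale.Agent.P141.PL.H315 (Tri)
open Vale.Agent.P141.H48 (US ES BSl)
open Vale.Agent.P141.H305 (ClsM kapM)
open Vale.Agent.P141.H103 (GW)
open Vale.Agent.P141.H401 (StQ FibU FibP cb)
open Vale.Agent.P141.H677 (rt cP KT)
open Vale.Agent.P141.H408
open Vale.Agent.P141.H808 (cS thS)
open Vale.Agent.P141.H886 (NumF SumU pBC NumBC)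
open Vale.Agent.P141.H548 (TL eL dL vN oN Agr EC)
open Vale.Agent.P141.H302 (bN Pr)
open Vale.Agent.P141.H989.CrB (fCRB mB)
open Vale.Agent.P141.H912 (wS)
open Vale.Agent.P141.H652 (dB payS PbS)
open Vale.Agent.P141.H736 (wE)
open Vale.Agent.P141.H457 (rs SD PG)
open Vale.Agent.P141.H419.WFamR (Wn nmB)
open Vale.Agent.P141.H419.PairB (gnV)
open Vale.Agent.P141.H874 (CP sk)

noncomputable section

open scoped Classical

set_option linter.unusedVariables false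

/-- the number of the second slot -/
def fE : NumF := fun ι _ _ p n ez F1 F2 F3 o K x s r U g u v Q1 Q2 Q3 x0 =>
  ((((∑ l ∈ range (K + 1), (3 / 4 : ℝ) ^ l * vN 0 l ι p n ez F1 F2 F3 o K x s r U g u v Q1 Q2 Q3 x0) +
    ∑ l ∈ range (K + 1), (3 / 4 : ℝ) ^ l * vN 1 l ι p n ez F1 F2 F3 o K x s r U g u v Q1 Q2 Q3 x0) +
    ∑ l ∈ range (K + 1), (3 / 4 : ℝ) ^ l * oN l ι p n ez F1 F2 F3 o K x s r U g u v Q1 Q2 Q3 x0) +
    ∑ l ∈ range (K + 1), (3 / 4 : ℝ) ^ l *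
      bN (l + 1) ι p n ez F1 F2 F3 o K x s r U g u v Q1 Q2 Q3 x0) +
    (bN 0 ι p n ez F1 F2 F3 o K x s r U g u v Q1 Q2 Q3 x0 +
      fCRB mB ι p n ez F1 F2 F3 o K x s r U g u v Q1 Q2 Q3 x0)

theorem sumU_E : SumU 1 fE :=
  ((((H548.sumU_v (Nat.zero_le 1)).add (H548.sumU_v le_rfl)).add H548.sumU_o).add
    H302.sumU_b1).add (H302.sumU_b0.add H989.CrB.sumU_mB)

/-- the number of the first slot -/
def fB : NumF := fun ι _ _ p n ez F1 F2 F3 o K x s r U g u v Q1 Q2 Q3 x0 =>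
  dB p s r U K x u F3 Q3 x0 + payS (beI p r) (p.lam s r) o K (cx K x) u
    (H652.bS p s r U K u F3 Q3 x0) x0

section pt

variable {ι : Type} [Fintype ι] [DecidableEq ι] {p : H401.Num} {n : ℕ} {ez : ℝ}
  {F1 F2 F3 : ℕ → Pt → ℝ} {o : ℤ} {K : ℕ} {x : Pt} {s r : ℝ} {U : Tri} {g : ℤ → ℤ → ℝ}
  {u v : ℤ → ℤ → ι → ℝ} {Q1 Q2 Q3 : ℕ → Pt → Prop}

/-- every part of `fE` is nonnegative and at most `fE` -/
theorem parts (ht : 0 < p.t) (hs : 0 < s) (hr : 1 ≤ r) (x0 : ℤ) :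
    (0 ≤ wS K (fun l => vN 0 l ι p n ez F1 F2 F3 o K x s r U g u v Q1 Q2 Q3 x0) ∧
      0 ≤ wS K (fun l => vN 1 l ι p n ez F1 F2 F3 o K x s r U g u v Q1 Q2 Q3 x0)) ∧
    (0 ≤ wS K (fun l => oN l ι p n ez F1 F2 F3 o K x s r U g u v Q1 Q2 Q3 x0) ∧
      0 ≤ wS K (fun l => bN (l + 1) ι p n ez F1 F2 F3 o K x s r U g u v Q1 Q2 Q3 x0)) ∧
    (0 ≤ bN 0 ι p n ez F1 F2 F3 o K x s r U g u v Q1 Q2 Q3 x0 ∧
      0 ≤ fCRB mB ι p n ez F1 F2 F3 o K x s r U g u v Q1 Q2 Q3 x0) := by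
  have hb : ∀ q, 0 ≤ bN q ι p n ez F1 F2 F3 o K x s r U g u v Q1 Q2 Q3 x0 := by
    intro q
    unfold H302.bN
    refine sum_nonneg fun k _ => sum_nonneg fun x1 _ => sum_nonneg fun z _ => ?_
    split_ifs
    · exact H302.eT_nn ht hs hr _ _ _ _
    · exact le_rfl
  refine ⟨⟨H912.wS_nonneg fun q => H548.vN_nn ht hs hr 0 q,
    H912.wS_nonneg fun q => H548.vN_nn ht hs hr 1 q⟩,
    ⟨H912.wS_nonneg fun q => H548.oN_nn ht hs hr q, H912.wS_nonneg fun q => hb (q + 1)⟩,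
    hb 0, ?_⟩
  unfold H989.CrB.fCRB
  refine sum_nonneg fun k _ => sum_nonneg fun x1 _ => sum_nonneg fun z _ => ?_
  split_ifs
  · exact H302.eT_nn ht hs hr _ _ _ _
  · exact le_rfl

theorem point (ht : 0 < p.t) (ht1 : p.t ≤ 1) (he0 : 0 < p.e0) (hd1 : p.d ≤ 1)
    (ho : o = 1 ∨ o = -1) (hK : K ≤ n) (hs : 0 < s) (hr : 1 ≤ r)
    (hcls : ClsM K x s r (p.L * p.t ^ (2 - p.c) * √s) (kapM p.L p.t p.a s r) U g u v)
    (q2 : BSl n ez p.cP F2 Q2) (hez : 0 < ez) (x0 : ℤ) {z : ℝ} {J : ℕ} (hz : gI p s r ≤ z)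
    (hJ : (2 * cCI p s r) ^ 2 ≤ 4 ^ J * z ^ 2)
    (hE0 : 0 ≤ fE ι p n ez F1 F2 F3 o K x s r U g u v Q1 Q2 Q3 x0)
    (hB0 : 0 ≤ fB ι p n ez F1 F2 F3 o K x s r U g u v Q1 Q2 Q3 x0) :
    pBC (p.al U K) o K (cx K x) (beI p r) (p.lam s r) u (cb p s r U K u F3 Q3)
        (C1 p ez U K v F2) (tauI p s r) z x0 ≤
      18 * 48576 * ((J : ℝ) + 1) ^ 3 *
        (√(z ^ 2 * fE ι p n ez F1 F2 F3 o K x s r U g u v Q1 Q2 Q3 x0 *
          (tauI p s r ^ 2 * fB ι p n ez F1 F2 F3 o K x s r U g u v Q1 Q2 Q3 x0)) +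
        tauI p s r ^ 2 * fE ι p n ez F1 F2 F3 o K x s r U g u v Q1 Q2 Q3 x0) := by
  have hy : 0 < p.t / r := div_pos ht (by linarith)
  have hbe : 0 < beI p r := Real.rpow_pos_of_pos hy _
  have hl : 0 < p.lam s r := H401.Num.lam_pos (p := p) ht hs hr
  have hth : 0 < p.th s r := H401.Num.th_pos (p := p) ht hs hr
  have htau := tauI_pos (p := p) ht hs hr
  have hg0 : 0 < gI p s r := mul_pos (Real.rpow_pos_of_pos hy _) htau
  have hz0 : 0 < z := hg0.trans_le hz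
  have hz2 : 0 < z ^ 2 := by positivity
  have hL1 : (1 : ℝ) ≤ ((J : ℝ) + 1) ^ 3 := one_le_pow₀ (by
    have : (0 : ℝ) ≤ J := Nat.cast_nonneg J
    linarith)
  obtain ⟨⟨a1, a2⟩, ⟨a3, a4⟩, a5, a6⟩ := parts (ι := ι) (n := n) (ez := ez) (F1 := F1) (F2 := F2)
    (F3 := F3) (o := o) (K := K) (x := x) (U := U) (g := g) (u := u) (v := v) (Q1 := Q1)
    (Q2 := Q2) (Q3 := Q3) ht hs hr x0
  have b1 : vN 1 0 ι p n ez F1 F2 F3 o K x s r U g u v Q1 Q2 Q3 x0 ≤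
      wS K (fun l => vN 1 l ι p n ez F1 F2 F3 o K x s r U g u v Q1 Q2 Q3 x0) :=
    H912.wS_zero_le (X := fun l => vN 1 l ι p n ez F1 F2 F3 o K x s r U g u v Q1 Q2 Q3 x0)
      fun q => H548.vN_nn ht hs hr 1 q
  have b3 : oN 0 ι p n ez F1 F2 F3 o K x s r U g u v Q1 Q2 Q3 x0 ≤
      wS K (fun l => oN l ι p n ez F1 F2 F3 o K x s r U g u v Q1 Q2 Q3 x0) :=
    H912.wS_zero_le (X := fun l => oN l ι p n ez F1 F2 F3 o K x s r U g u v Q1 Q2 Q3 x0)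
      fun q => H548.oN_nn ht hs hr q
  have eE : fE ι p n ez F1 F2 F3 o K x s r U g u v Q1 Q2 Q3 x0 =
      wS K (fun l => vN 0 l ι p n ez F1 F2 F3 o K x s r U g u v Q1 Q2 Q3 x0) +
      wS K (fun l => vN 1 l ι p n ez F1 F2 F3 o K x s r U g u v Q1 Q2 Q3 x0) +
      wS K (fun l => oN l ι p n ez F1 F2 F3 o K x s r U g u v Q1 Q2 Q3 x0) +
      wS K (fun l => bN (l + 1) ι p n ez F1 F2 F3 o K x s r U g u v Q1 Q2 Q3 x0) +
      (bN 0 ι p n ez F1 F2 F3 o K x s r U g u v Q1 Q2 Q3 x0 +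
        fCRB mB ι p n ez F1 F2 F3 o K x s r U g u v Q1 Q2 Q3 x0) := rfl
  have hdB := H652.dB_nonneg (p := p) (s := s) (r := r) (U := U) (K := K) (u := u) (F3 := F3)
    (Q3 := Q3) x x0
  have hpay := H652.payS_nonneg (K := K) (M := cx K x) (u := u) (o := o) (x0 := x0) hbe hl
    (H652.bS p s r U K u F3 Q3 x0)
  have eB : fB ι p n ez F1 F2 F3 o K x s r U g u v Q1 Q2 Q3 x0 =
      dB p s r U K x u F3 Q3 x0 + payS (beI p r) (p.lam s r) o K (cx K x) u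
        (H652.bS p s r U K u F3 Q3 x0) x0 := rfl
  set E := fE ι p n ez F1 F2 F3 o K x s r U g u v Q1 Q2 Q3 x0 with hE
  set EB := fB ι p n ez F1 F2 F3 o K x s r U g u v Q1 Q2 Q3 x0 with hEB
  set c' := H170.Win.cut K (cx K x).1 (cx K x).2.2 (cS p ez U K v F2 x0) with hc'
  set Pc := Pr (cS p ez U K v F2 x0) with hPcd
  -- the path
  have hA : Agr p ez K x U v F2 x0 c' := by
    intro k hk x1 h1 z1 h2
    rw [hc', H170.Win.cut_in h1 h2, min_eq_left hk]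
  have hPc : ∀ k < K, ∀ w m, ¬ Pc k w m → ∀ x1 ∈ iv k m, c' (k + 1) x1 w = c' k x1 w :=
    H74.CutBC.cut_row H302.pr_not
  have cap0 : ∀ k a n' m, k ≤ a → a < K →
      (cCI p s r ^ 2 • (1 : Matrix (Ix k × ι) (Ix k × ι) ℝ) -
        SD (beI p r) (TL p s r o K x u x0) k (a + 1) n' m * CP (c' k) k (a + 1) n' m *
        SD (beI p r) (TL p s r o K x u x0) k (a + 1) n' m).PosSemidef := by
    intro k a n' m hka ha
    exact H74.CapBC.cut_capX ht ht1 hd1 he0.le hs hr hez hK hcls.toCls q2 x0 (by omega) (by omega)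
      (by omega) n' m
  have cap1 : ∀ k a n' m, k ≤ a → a < K →
      (cCI p s r ^ 2 • (1 : Matrix (Ix k × ι) (Ix k × ι) ℝ) -
        SD (beI p r) (TL p s r o K x u x0) k (a + 1) n' m * CP (c' (k + 1)) k (a + 1) n' m *
        SD (beI p r) (TL p s r o K x u x0) k (a + 1) n' m).PosSemidef := by
    intro k a n' m hka ha
    exact H74.CapBC.cut_capX ht ht1 hd1 he0.le hs hr hez hK hcls.toCls q2 x0 (by omega) (by omega)
      (by omega) n' m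
  have hCap : 2 * cCI p s r ^ 2 ≤ 4 ^ J * z ^ 2 := by nlinarith [sq_nonneg (cCI p s r)]
  -- births
  have hW4 : ∑ k ∈ Ico 0 K, Wn K (cx K x).2.2 (cx K x).1 (beI p r) (TL p s r o K x u x0)
      (rs (Pc k) k (c' (k + 1))) k ≤ bN 0 ι p n ez F1 F2 F3 o K x s r U g u v Q1 Q2 Q3 x0 := by
    refine le_trans (le_of_eq ?_) (H302.Wn_bN ht hs hr (P := Pc) (H302.pr_ch) n F1 F3 g Q1 Q2 Q3)
    refine sum_congr rfl fun k hk => ?_
    exact H74.CutBC.Wn_rs_cut (by have := (mem_Ico.1 hk).2; omega) _ _ _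
  have hnB : wS K (fun q => H548.nB p s r o K x u x0 Pc c' q) ≤
      wS K (fun l => bN (l + 1) ι p n ez F1 F2 F3 o K x s r U g u v Q1 Q2 Q3 x0) := by
    refine H912.wS_mono fun q => ?_
    show nmB K (cx K x).2.2 (cx K x).1 (beI p r) (TL p s r o K x u x0) Pc c' q ≤ _
    rw [hc', H74.CutBC.nmB_cut]
    exact H302.nmB_bN ht hs hr H302.pr_ch q n F1 F3 g Q1 Q2 Q3
  have hEC : EC p s r n ez F1 F2 F3 o K x U g u v Q1 Q2 Q3 x0 Pc c' ≤ E := by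
    unfold H548.EC
    rw [eE]
    linarith
  obtain ⟨hTV, hOM, hOO⟩ := H548.own3 (g := g) (Q1 := Q1) (Q2 := Q2) (Q3 := Q3) (F1 := F1)
    (F3 := F3) ht ht1 he0.le hs hr hA hPc hz2 hCap cap0 cap1 hEC
  have hC3 : ∑ k ∈ Ico 0 K, ∑ x1 ∈ iv K (cx K x).1, ∑ z ∈ iv K (cx K x).2.2,
      (if ∃ w, ix (k + 1) w = cP o x0 (k + 1) - ix (k + 1) x1 - ix (k + 1) z ∧
        PbS p s r U K u F3 Q3 x0 k w (ix k x1) then
        wE (beI p r) (TL p s r o K x u x0) k (c' (k + 1)) x1 z else 0) ≤ E := by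
    refine le_trans (le_of_eq (?_ : _ = fCRB mB ι p n ez F1 F2 F3 o K x s r U g u v Q1 Q2 Q3 x0))
      (by rw [eE]; linarith)
    unfold H989.CrB.fCRB
    refine sum_congr rfl fun k hk => sum_congr rfl fun x1 h1 => sum_congr rfl fun z h2 => ?_
    have hk1 : k + 1 ≤ K := (mem_Ico.1 hk).2
    rw [hc', H74.CutBC.wE_cut hk1 h1 h2]
    rfl
  have hC4 : ∑ k ∈ Ico 0 K, ∑ x1 ∈ iv K (cx K x).1, ∑ z ∈ iv K (cx K x).2.2,
      wE (beI p r) (TL p s r o K x u x0) k (rs (Pc k) k (c' (k + 1))) x1 z ≤ E :=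
    le_trans hW4 (by rw [eE]; linarith)
  have hB1 := (H652.bS_hB1 (p := p) (s := s) (r := r) (U := U) (K := K) (u := u) (F3 := F3)
    (Q3 := Q3) x x0).trans (show _ ≤ EB by rw [eB]; linarith)
  have hB2 := (H652.bS_hB2 (p := p) (s := s) (r := r) (U := U) (K := K) (u := u) (F3 := F3)
    (Q3 := Q3) x x0).trans (show _ ≤ EB by rw [eB]; linarith)
  have hB3 := (H652.pay_hB3 (K := K) (M := cx K x) (u := u) (o := o) (x0 := x0) hbe hl
    (H652.bS p s r U K u F3 Q3 x0)).trans (show _ ≤ EB by rw [eB]; linarith)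
  have hB4 := (H652.pay_hB4 (K := K) (M := cx K x) (u := u) (o := o) (x0 := x0) (l := p.lam s r)
    hbe (H652.bS p s r U K u F3 Q3 x0)).trans (show _ ≤ EB by rw [eB]; linarith)
  have hfix := H736.fix_BC hbe hz2 (sq_nonneg (p.th s r)) (by norm_num : (0 : ℝ) ≤ 2) le_rfl
    (H548.wt_cls (o := o) (K := K) (x := x) (u := u) (x0 := x0) ht hs hr)
    (H548.two_cls (o := o) (K := K) (x := x) (u := u) (x0 := x0) ht hs hr)
    (b := H652.bS p s r U K u F3 Q3 x0) (c := c') (Pb := PbS p s r U K u F3 Q3 x0) (Pc := Pc)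
    (H652.PbS_off x0) hPc (H652.bS_capk hth x0) (H652.bS_capk1 hth x0) (H652.bS_capN hth x0)
    (H677.cP_pl ho x0) (a := 48576 * ((J : ℝ) + 1) ^ 3) (by linarith) hE0 hB0 hB1 hB2 hB3 hB4
    ((H548.hC1_cls (n := n) (F1 := F1) (F3 := F3) (g := g) (Q1 := Q1) (Q2 := Q2) (Q3 := Q3)
      ht hs hr hA).trans (by rw [eE]; linarith))
    ((H548.hC2_cls (n := n) (F1 := F1) (F3 := F3) (g := g) (Q1 := Q1) (Q2 := Q2) (Q3 := Q3)
      ht hs hr hA).trans (by rw [eE]; linarith))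
    hC3 hC4 hTV hOM hOO
  refine (H329.WinBC.pBC_cls ht hs hr ez U o K x u v F2 F3 Q3 htau hz0 x0).trans ?_
  refine le_trans (le_of_eq (H74.CutBC.GW_win_cut (cx K x).2.1 (cP o x0)
    (fun k a n m => CP (H652.bS p s r U K u F3 Q3 x0 k) k a n m) (fun k => sk (k + 1) ι)).symm) ?_
  refine le_trans hfix ?_
  have hτ2 : p.th s r ^ 2 ≤ tauI p s r ^ 2 := by
    unfold tauI
    nlinarith [sq_nonneg (p.th s r)]
  have e1 : 18 * (48576 * ((J : ℝ) + 1) ^ 3) = 18 * 48576 * ((J : ℝ) + 1) ^ 3 := by ring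
  rw [e1]
  gcongr

end pt

theorem numBC : NumBC (18 * 48576) 2 := by
  refine H222.Of.numBC_of sumU_E H652.EBU ?_
  intro ι _ _ p n ez F1 F2 F3 o K x s r U g u v Q1 Q2 Q3 ht ht1 he0 he1 hk3 hk31 hd hd1 hc he hcP hL
    ho hK hs hr hcls q1 q2 q3 hez f1 f2
  have hbe : 0 < beI p r := Real.rpow_pos_of_pos (div_pos ht (by linarith)) _
  have hl : 0 < p.lam s r := H401.Num.lam_pos (p := p) ht hs hr
  have hE : ∀ x0, 0 ≤ fE ι p n ez F1 F2 F3 o K x s r U g u v Q1 Q2 Q3 x0 := by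
    intro x0
    obtain ⟨⟨a1, a2⟩, ⟨a3, a4⟩, a5, a6⟩ := parts (ι := ι) (n := n) (ez := ez) (F1 := F1) (F2 := F2)
      (F3 := F3) (o := o) (K := K) (x := x) (U := U) (g := g) (u := u) (v := v) (Q1 := Q1)
      (Q2 := Q2) (Q3 := Q3) ht hs hr x0
    exact add_nonneg (add_nonneg (add_nonneg (add_nonneg a1 a2) a3) a4) (add_nonneg a5 a6)
  have hB : ∀ x0, 0 ≤ fB ι p n ez F1 F2 F3 o K x s r U g u v Q1 Q2 Q3 x0 := fun x0 =>
    add_nonneg (H652.dB_nonneg x x0) (H652.payS_nonneg hbe hl _)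
  exact ⟨hE, hB, fun t' _ x0 _ z J hz _ hJ =>
    point ht ht1 he0 hd1 ho hK hs hr hcls q2 hez x0 hz hJ (hE x0) (hB x0)⟩

theorem lBCg : LBCg := H886.lbc_end (by norm_num) (by norm_num) numBC

end

end Vale.Agent.P141.H675.PT
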